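import Mathlib
import Vale.Agent.Lib.P015.StripComplex

namespace Vale.Agent.Results.P015.LineStrip

/-- For every line `z₀ + t w` (`t` real) of the complex plane and all bounds `K`, `D`, there is
no infinite sequence of pairwise distinct Gaussian primes with successive distances at most `D`
all of whose terms lie within distance `K` of the line. -/
theorem result (z₀ w : ℂ) (K D : ℝ) :
    ¬ ∃ f : ℕ → GaussianInt, Function.Injective f ∧ (∀ n, Irreducible (f n)) ∧
      (∀ n, ‖GaussianInt.toComplex (f (n + 1)) - GaussianInt.toComplex (f n)‖ ≤ D) ∧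
      (∀ n, ∃ t : ℝ, ‖GaussianInt.toComplex (f n) - (z₀ + (t : ℂ) * w)‖ ≤ K) :=
  Vale.Agent.Lib.P015.no_walk_near_line z₀ w K D

end Vale.Agent.Results.P015.LineStrip
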