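import Mathlib
import Vale.Agent.Lib.P015.Log.LineMain

namespace Vale.Agent.Results.P015.LogLineStrip

/-- For every nonzero Gaussian integer `v` there is a constant `c > 0` such that for every
complex number `z₀`, every step bound `D > 0` and every real function `h` with
`h x ≤ c * log x / D` for all large `x`, there is no infinite sequence of pairwise distinct
Gaussian primes with successive distances at most `D` all of whose terms `z` lie within
distance `h |z|` of the line `{z₀ + t v : t real}`. -/
theorem result (v : GaussianInt) (hv : v ≠ 0) :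
    ∃ c : ℝ, 0 < c ∧ ∀ z₀ : ℂ, ∀ D : ℝ, 0 < D → ∀ h : ℝ → ℝ,
      (∀ᶠ x in Filter.atTop, h x ≤ c * Real.log x / D) →
      ¬ ∃ f : ℕ → GaussianInt, Function.Injective f ∧ (∀ n, Irreducible (f n)) ∧
        (∀ n, ‖GaussianInt.toComplex (f (n + 1)) - GaussianInt.toComplex (f n)‖ ≤ D) ∧
        (∀ n, ∃ t : ℝ, ‖GaussianInt.toComplex (f n) -
            (z₀ + (t : ℂ) * GaussianInt.toComplex v)‖
              ≤ h ‖GaussianInt.toComplex (f n)‖) :=
  Vale.Agent.Lib.P015.no_walk_log_line v hv

end Vale.Agent.Results.P015.LogLineStrip
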