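import Mathlib
import Vale.Agent.Lib.P015.Log.Main

namespace Vale.Agent.Results.P015.LogStrip

/-- There is an absolute constant `c > 0` such that for every step bound `D > 0` and every
real function `h` with `h x ≤ c * log x / D` for all large `x`, there is no infinite
sequence of pairwise distinct Gaussian primes with successive distances at most `D` all of
whose terms `z` satisfy `|Im z| ≤ h |Re z|`. -/
theorem result : ∃ c : ℝ, 0 < c ∧ ∀ D : ℝ, 0 < D → ∀ h : ℝ → ℝ,
    (∀ᶠ x in Filter.atTop, h x ≤ c * Real.log x / D) →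
    ¬ ∃ f : ℕ → GaussianInt, Function.Injective f ∧ (∀ n, Irreducible (f n)) ∧
      (∀ n, ‖GaussianInt.toComplex (f (n + 1)) - GaussianInt.toComplex (f n)‖ ≤ D) ∧
      (∀ n, |((f n).im : ℝ)| ≤ h |((f n).re : ℝ)|) :=
  Vale.Agent.Lib.P015.no_walk_log_strip

end Vale.Agent.Results.P015.LogStrip
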