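import Mathlib
import Vale.Agent.Lib.P015.Log.Quant

namespace Vale.Agent.Results.P015.StripEscapeBound

/-- There is an absolute constant `C > 0` such that for all real `D ≥ 1` and `K ≥ C * D`,
every sequence of Gaussian primes with successive distances at most `D` that stays in the
strip `|Im z| ≤ K` and starts at a point with `|Re z| ≤ K` satisfies
`|Re z| ≤ exp (C * D * K)` at all its terms. -/
theorem result : ∃ C : ℝ, 0 < C ∧ ∀ D K : ℝ, 1 ≤ D → C * D ≤ K →
    ∀ f : ℕ → GaussianInt, (∀ n, Irreducible (f n)) →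
      (∀ n, ‖GaussianInt.toComplex (f (n + 1)) - GaussianInt.toComplex (f n)‖ ≤ D) →
      (∀ n, |((f n).im : ℝ)| ≤ K) → |((f 0).re : ℝ)| ≤ K →
      ∀ n, |((f n).re : ℝ)| ≤ Real.exp (C * D * K) :=
  Vale.Agent.Lib.P015.strip_walk_bound

end Vale.Agent.Results.P015.StripEscapeBound
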